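import Vale.Agent.P167.N.Kit
import Vale.Agent.P167.N.H398.Q.Mac
import Vale.Agent.P167.N.H975.LkH
import Vale.Agent.P167.H945.L.Abs

/-! generated from Vale.Agent.P167.H945.L.Abs (q < 1 port) -/

set_option autoImplicit false

namespace Vale.Agent.P167.N.H945.L

open Vale.Agent.P167.H945.L Vale.Agent.P167.H945

open Finset

open Vale.Agent.P167.BR

open Vale.Agent.P167.FK (Bq Ex Good RSW cf)

open Vale.Agent.P167.FKA (Loc Ind Ex_mono Ex_congr Ex_const Ex_mul_left Ex_nonneg Ex_add Ex_sub)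

open Vale.Agent.P167.H562.QM (MajA OneC Nr)

open Vale.Agent.P167.H166 (bxx mem_bxx)

open Vale.Agent.P167.H398.Q (macro_F)

open Vale.Agent.P167.H975 (ex_prod_G)

open Vale.Agent.P167.H167.Q (MxA)

variable {Q : ℝ} {D : Finset (ℤ × ℤ)} {η : Cfg}

/-- **The number of the large strands.** -/
theorem exists_big (hQ : Kit Q) (hR : RSW Q) (ms : ℕ) {ρ₀ R σ : ℝ} (hρ₀ : 0 < ρ₀) (hR0 : 0 ≤ R)
    (hρσ : ρ₀ ≤ σ) : ∃ e C n₀ : ℝ, 0 < e ∧ 0 < C ∧ ∀ n : ℕ, n₀ ≤ n →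
    ∀ (D : Finset (ℤ × ℤ)) (x₀ : ℤ × ℤ), (∀ v ∈ D, (nm (v - x₀) : ℝ) ≤ R * n) →
    ∀ x : Fin ms → ℤ × ℤ, ∃ Nb : Cfg → ℕ,
      (∀ ω, MajA D ((⌊ρ₀ * n⌋ : ℝ) / 16) ω (Nb ω)) ∧
      ∀ η : Cfg, Good η → (∀ (y : ℤ × ℤ) (a : ℤ), 1 ≤ a → a ≤ ⌊σ * n⌋ →
        (∃ v ∈ D, nm (y - v) ≤ ⌊σ * n⌋) → OneC y a D η) →
      ∀ G : Cfg → ℝ, (∀ ω, 0 ≤ G ω) →
      (∀ ω ω' : Cfg, (∀ v, ¬ (v ∈ D ∧ ∀ i, e * n < (nm (v - x i) : ℝ)) → ω v = ω' v) →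
        G ω = G ω') →
      Ex Q D η (fun ω => G ω * Real.exp (Nb ω : ℝ)) ≤ C * Ex Q D η G := by
  have hQ_pos := hQ.pos
  obtain ⟨e1, he1, H⟩ := Vale.Agent.P167.N.H398.Q.macro_F hQ hR ms
  obtain ⟨C, n₀, hC, hn₀, H⟩ := H (ρ₀ / 32) R 1 (by positivity) hR0
  refine ⟨e1 * (ρ₀ / 32) / (1 + |(1 : ℝ)|), C, max n₀ (2 / ρ₀), by positivity, hC, ?_⟩
  intro n hn D x₀ hD x
  have hn1 : n₀ ≤ n := (le_max_left _ _).trans hn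
  have hn2 : 2 / ρ₀ ≤ n := (le_max_right _ _).trans hn
  rw [div_le_iff₀ hρ₀] at hn2
  have hρn : 2 ≤ ρ₀ * n := by linarith
  have hn0 : (0 : ℝ) ≤ n := Nat.cast_nonneg n
  obtain ⟨Nb, -, n2, n3⟩ := H n hn1 x₀ D hD x
  have h1 := floor_half (x := ρ₀ * n) (by linarith)
  have hσn : ρ₀ * n ≤ σ * n := mul_le_mul_of_nonneg_right hρσ hn0
  have h2 := floor_half (x := σ * n) (by linarith)
  refine ⟨Nb, fun ω 𝓕 k1 k2 k3 => n2 ω 𝓕 k1 k2 fun γ hγ => ?_,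
    fun η hη hone G hG0 hG => ?_⟩
  · obtain ⟨k4, f1, hf1, f2, hf2, k5⟩ := k3 γ hγ
    exact ⟨k4, f1, hf1, f2, hf2, by linarith⟩
  · have h3 := n3 D η hη (fun y a ha ha' hy => ?_) G hG0 fun ω ω' hω => hG ω ω' fun v hv =>
      hω v fun hv' => hv ⟨hv'.1, hv'.2.2⟩
    · simpa only [one_mul] using h3
    · have h5 : y ∈ bxx y a := by
        rw [mem_bxx, sub_self]
        show max |(0 : ℤ)| |(0 : ℤ)| ≤ a
        simp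
        omega
      obtain ⟨u, hu, hu'⟩ := (hy y h5).1
      refine hone y a ha ?_ ⟨u, hu, ?_⟩
      · have : (a : ℝ) ≤ (⌊σ * n⌋ : ℝ) := by linarith
        exact_mod_cast this
      · have : (nm (y - u) : ℝ) ≤ (⌊σ * n⌋ : ℝ) := by linarith
        exact_mod_cast this

/-- **A bound of an expectation, times separated local factors.** -/
theorem mom_split (hQ : Kit Q) (hη : Good η) {r R : ℤ} (x : ℕ → ℤ × ℤ) (F : ℕ → Cfg → ℝ)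
    {G1 G2 : Cfg → ℝ} (I : Finset ℕ) (hM : ∀ i ∈ I, MxA Q D η (x i) r R (1 / 2))
    (hF0 : ∀ i ∈ I, ∀ ω, 0 ≤ F i ω) (hF : ∀ i ∈ I, Loc (Bq (x i) r ∩ D) (F i))
    (hd : ∀ i ∈ I, ∀ j ∈ I, i ≠ j → Disjoint (Bq (x i) R) (Bq (x j) r))
    (hG1 : ∀ ω, 0 ≤ G1 ω) (hG1I : ∀ i ∈ I, Ind (Bq (x i) R ∩ D) G1)
    (hG2 : ∀ ω, 0 ≤ G2 ω) (hG2I : ∀ i ∈ I, Ind (Bq (x i) R ∩ D) G2) {Y : ℝ} (hY : 0 ≤ Y)
    (h : Ex Q D η G1 ≤ Y * Ex Q D η G2) :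
    Ex Q D η (fun ω => G1 ω * ∏ i ∈ I, F i ω) ≤
      3 ^ I.card * Y * Ex Q D η (fun ω => G2 ω * ∏ i ∈ I, F i ω) := by
  have hQ_pos := hQ.pos
  have hQ0 : 0 < Q := hQ.pos
  have h1 := (Vale.Agent.P167.N.H975.ex_prod_G hQ (by norm_num) (by norm_num) hη x F G1 I hM hF0 hF hd hG1 hG1I).2
  have h2 := (Vale.Agent.P167.N.H975.ex_prod_G hQ (by norm_num) (by norm_num) hη x F G2 I hM hF0 hF hd hG2 hG2I).1
  set p := ∏ i ∈ I, Ex Q D η (F i) with hp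
  have hp0 : 0 ≤ p := prod_nonneg fun i hi => Ex_nonneg hQ0 fun S _ => hF0 i hi _
  have h3 : (1 + 1 / 2 : ℝ) ^ I.card = 3 ^ I.card * (1 - 1 / 2 : ℝ) ^ I.card := by
    rw [← mul_pow]
    norm_num
  rw [h3] at h1
  have h4 : Ex Q D η G1 * p ≤ Y * (Ex Q D η G2 * p) := by
    have := mul_le_mul_of_nonneg_right h hp0
    linarith
  calc _ ≤ _ := h1
    _ ≤ 3 ^ I.card * (1 - 1 / 2 : ℝ) ^ I.card * (Y * (Ex Q D η G2 * p)) :=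
        mul_le_mul_of_nonneg_left h4 (by positivity)
    _ = 3 ^ I.card * Y * ((1 - 1 / 2 : ℝ) ^ I.card * (Ex Q D η G2 * p)) := by ring
    _ ≤ _ := mul_le_mul_of_nonneg_left h2 (by positivity)

end Vale.Agent.P167.N.H945.L
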